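import Mathlib

/-!
# P344: the lower bound `3n - d(n) - 2` on the number of gates of every linear circuit computing
the discrete Fourier transform of order `n`, where `d(n)` is the number of divisors of `n`.

Wires are numbered in order of computation: wires `0, …, n-1` hold the inputs `x_0, …, x_{n-1}`,
wire `n + k` holds the value of the `k`-th gate. A gate is `u + v`, `u - v` or `c * u` for a fixed
complex `c`, where `u, v` are wires given by their numbers; a number that is not the number of an
already computed wire reads as the constant `0`. Every gate costs one.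
-/

namespace Vale.Agent.Results.P344.DivisorBound

open Finset

/-- A gate of a linear circuit: the sum or difference of two wires, or a fixed complex multiple
of a wire. Wires are referred to by their numbers. -/
inductive Gate where
  | add (i j : ℕ) : Gate
  | sub (i j : ℕ) : Gate
  | smul (c : ℂ) (i : ℕ) : Gate

/-- The value of a gate, given the values `ws` of the wires computed so far
(a number that is not a wire reads as `0`). -/
def Gate.val (ws : List ℂ) : Gate → ℂ
  | Gate.add i j => ws.getD i 0 + ws.getD j 0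
  | Gate.sub i j => ws.getD i 0 - ws.getD j 0
  | Gate.smul c i => c * ws.getD i 0

/-- Run the gates in order, appending the value of each gate to the list of wire values. -/
def run : List Gate → List ℂ → List ℂ
  | [], ws => ws
  | g :: gs, ws => run gs (ws ++ [g.val ws])

/-- The linear circuit with gate list `gs` on `n` inputs computes the matrix `A`: there are
designated output wires whose values are the entries of `A x`, for every input vector `x`. -/
def Computes (n : ℕ) (gs : List Gate) (A : Matrix (Fin n) (Fin n) ℂ) : Prop :=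
  ∃ out : Fin n → ℕ, ∀ x : Fin n → ℂ, ∀ j : Fin n,
    (run gs (List.ofFn x)).getD (out j) 0 = A.mulVec x j

/-- The unnormalized discrete Fourier matrix `(ζ^(j k))`, with `ζ = exp (2 π i / n)`. -/
noncomputable def dft (n : ℕ) : Matrix (Fin n) (Fin n) ℂ :=
  Matrix.of fun j k => Complex.exp (2 * Real.pi * Complex.I / n) ^ (j.val * k.val)

/-! ## Proof -/

/-- the gate value on coefficient vectors -/
def Gate.valV {n : ℕ} (ws : List (Fin n → ℂ)) : Gate → (Fin n → ℂ)
  | Gate.add i j => ws.getD i 0 + ws.getD j 0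
  | Gate.sub i j => ws.getD i 0 - ws.getD j 0
  | Gate.smul c i => c • ws.getD i 0

/-- run on coefficient vectors -/
def runV {n : ℕ} : List Gate → List (Fin n → ℂ) → List (Fin n → ℂ)
  | [], ws => ws
  | g :: gs, ws => runV gs (ws ++ [g.valV ws])

/-- evaluation of a coefficient vector at an input -/
def ev {n : ℕ} (x v : Fin n → ℂ) : ℂ := ∑ k, v k * x k

lemma ev_zero {n : ℕ} (x : Fin n → ℂ) : ev x 0 = 0 := by simp [ev]

lemma ev_add {n : ℕ} (x u v : Fin n → ℂ) : ev x (u + v) = ev x u + ev x v := by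
  simp [ev, add_mul, Finset.sum_add_distrib]

lemma ev_sub {n : ℕ} (x u v : Fin n → ℂ) : ev x (u - v) = ev x u - ev x v := by
  simp [ev, sub_mul, Finset.sum_sub_distrib]

lemma ev_smul {n : ℕ} (x : Fin n → ℂ) (c : ℂ) (u : Fin n → ℂ) : ev x (c • u) = c * ev x u := by
  simp [ev, Finset.mul_sum, mul_assoc]

lemma getD_map_ev {n : ℕ} (x : Fin n → ℂ) (ws : List (Fin n → ℂ)) (i : ℕ) :
    (ws.map (ev x)).getD i 0 = ev x (ws.getD i 0) := by
  have h := List.getD_map ws (0 : Fin n → ℂ) (n := i) (ev x)
  rwa [ev_zero] at h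

lemma val_map_ev {n : ℕ} (x : Fin n → ℂ) (ws : List (Fin n → ℂ)) (g : Gate) :
    g.val (ws.map (ev x)) = ev x (g.valV ws) := by
  cases g with
  | add i j => simp only [Gate.val, Gate.valV]; rw [getD_map_ev, getD_map_ev, ev_add]
  | sub i j => simp only [Gate.val, Gate.valV]; rw [getD_map_ev, getD_map_ev, ev_sub]
  | smul c i => simp only [Gate.val, Gate.valV]; rw [getD_map_ev, ev_smul]

lemma run_map_ev {n : ℕ} (x : Fin n → ℂ) (gs : List Gate) :
    ∀ ws : List (Fin n → ℂ), run gs (ws.map (ev x)) = (runV gs ws).map (ev x) := by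
  induction gs with
  | nil => intro ws; rfl
  | cons g gs ih =>
    intro ws
    simp only [run, runV]
    rw [val_map_ev, ← ih]
    simp

lemma getD_mem_or {n : ℕ} (ws : List (Fin n → ℂ)) (i : ℕ) :
    ws.getD i 0 ∈ ws ∨ ws.getD i 0 = 0 := by
  by_cases h : i < ws.length
  · left; rw [List.getD_eq_getElem _ _ h]; exact List.getElem_mem h
  · right; exact List.getD_eq_default _ _ (by omega)

/-- a coefficient vector with no zero coefficient -/
def Full {n : ℕ} (w : Fin n → ℂ) : Prop := ∀ k, w k ≠ 0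

/-- The invariant: `A` counts the binary gates with a value that is not full, `B` those with a
full value, `S` the scalar gates. -/
def Inv {n : ℕ} (ws : List (Fin n → ℂ)) (A B S : ℕ) : Prop :=
  ((∀ w ∈ ws, ¬ Full w) → ∃ f : Fin n → ℕ, n ≤ (univ.image f).card + A ∧
      ∀ w ∈ ws, ∀ a b, w a ≠ 0 → w b ≠ 0 → f a = f b) ∧
  ((∃ w ∈ ws, Full w) → n ≤ A + 2) ∧
  (∃ T : Finset (Fin n → ℂ), T.card ≤ B ∧
      ∀ w ∈ ws, Full w → ∃ t ∈ T, ∃ c : ℂ, w = c • t) ∧
  (∃ G : Finset (Fin n → ℂ), G.card ≤ S ∧
      ∀ w ∈ ws, w ∈ Submodule.span ℚ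
        (Set.range (fun i : Fin n => (Pi.single i 1 : Fin n → ℂ)) ∪ (G : Set (Fin n → ℂ))))

lemma merge {n : ℕ} (f : Fin n → ℕ) (u v : Fin n → ℂ)
    (hu : ∀ a b, u a ≠ 0 → u b ≠ 0 → f a = f b)
    (hv : ∀ a b, v a ≠ 0 → v b ≠ 0 → f a = f b) :
    ∃ f' : Fin n → ℕ, (univ.image f).card ≤ (univ.image f').card + 1 ∧
      (∀ a b, f a = f b → f' a = f' b) ∧
      (∀ a b, (u a ≠ 0 ∨ v a ≠ 0) → (u b ≠ 0 ∨ v b ≠ 0) → f' a = f' b) := by
  by_cases h1 : ∃ a0, u a0 ≠ 0
  · by_cases h2 : ∃ b0, v b0 ≠ 0
    · obtain ⟨a0, ha0⟩ := h1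
      obtain ⟨b0, hb0⟩ := h2
      refine ⟨fun x => if f x = f b0 then f a0 else f x, ?_, ?_, ?_⟩
      · calc (univ.image f).card
            ≤ (insert (f b0) (univ.image fun x => if f x = f b0 then f a0 else f x)).card := by
              apply card_le_card
              intro y hy
              obtain ⟨x, -, rfl⟩ := mem_image.mp hy
              by_cases hx : f x = f b0
              · rw [hx]; exact mem_insert_self _ _
              · apply mem_insert_of_mem
                exact mem_image.mpr ⟨x, mem_univ _, by simp [hx]⟩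
          _ ≤ _ := card_insert_le _ _
      · intro a b hab
        simp [hab]
      · intro a b ha hb
        have key : ∀ c, (u c ≠ 0 ∨ v c ≠ 0) →
            (if f c = f b0 then f a0 else f c) = f a0 := by
          intro c hc
          rcases hc with hc | hc
          · have h3 : f c = f a0 := hu c a0 hc ha0
            by_cases h4 : f c = f b0
            · simp [h4]
            · simp [h3]
          · have h3 : f c = f b0 := hv c b0 hc hb0
            simp [h3]
        show (if f a = f b0 then f a0 else f a) = (if f b = f b0 then f a0 else f b)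
        rw [key a ha, key b hb]
    · push Not at h2
      refine ⟨f, Nat.le_succ _, fun a b h => h, ?_⟩
      intro a b ha hb
      have ha' : u a ≠ 0 := by
        rcases ha with h | h
        · exact h
        · exact absurd (h2 a) h
      have hb' : u b ≠ 0 := by
        rcases hb with h | h
        · exact h
        · exact absurd (h2 b) h
      exact hu a b ha' hb'
  · push Not at h1
    refine ⟨f, Nat.le_succ _, fun a b h => h, ?_⟩
    intro a b ha hb
    have ha' : v a ≠ 0 := by
      rcases ha with h | h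
      · exact absurd (h1 a) h
      · exact h
    have hb' : v b ≠ 0 := by
      rcases hb with h | h
      · exact absurd (h1 b) h
      · exact h
    exact hv a b ha' hb'

lemma step_bin {n : ℕ} (ws : List (Fin n → ℂ)) (A B S : ℕ) (h : Inv ws A B S)
    (u v w : Fin n → ℂ) (hu : u ∈ ws ∨ u = 0) (hv : v ∈ ws ∨ v = 0)
    (hsupp : ∀ a, w a ≠ 0 → u a ≠ 0 ∨ v a ≠ 0)
    (hint : ∀ V : Submodule ℚ (Fin n → ℂ), u ∈ V → v ∈ V → w ∈ V) :
    ∃ A' B' S', A' + B' + S' = A + B + S + 1 ∧ Inv (ws ++ [w]) A' B' S' := by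
  obtain ⟨hpart, hfull, ⟨T, hT, hcls⟩, ⟨G, hG, hspan⟩⟩ := h
  have hconst : ∀ (f : Fin n → ℕ), (∀ w' ∈ ws, ∀ a b, w' a ≠ 0 → w' b ≠ 0 → f a = f b) →
      ∀ y : Fin n → ℂ, (y ∈ ws ∨ y = 0) → ∀ a b, y a ≠ 0 → y b ≠ 0 → f a = f b := by
    intro f hf y hy a b ha hb
    rcases hy with hy | hy
    · exact hf y hy a b ha hb
    · exact absurd (by rw [hy]; rfl) ha
  have hintw : ∃ G : Finset (Fin n → ℂ), G.card ≤ S ∧
      ∀ w' ∈ ws ++ [w], w' ∈ Submodule.span ℚ
        (Set.range (fun i : Fin n => (Pi.single i 1 : Fin n → ℂ)) ∪ (G : Set (Fin n → ℂ))) := by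
    refine ⟨G, hG, ?_⟩
    intro w' hw'
    have hy : ∀ y : Fin n → ℂ, (y ∈ ws ∨ y = 0) → y ∈ Submodule.span ℚ
        (Set.range (fun i : Fin n => (Pi.single i 1 : Fin n → ℂ)) ∪ (G : Set (Fin n → ℂ))) := by
      intro y hy
      rcases hy with hy | hy
      · exact hspan y hy
      · rw [hy]; exact Submodule.zero_mem _
    rcases List.mem_append.mp hw' with hw' | hw'
    · exact hspan w' hw'
    · rw [List.mem_singleton.mp hw']
      exact hint _ (hy u hu) (hy v hv)
  by_cases hw : Full w
  · refine ⟨A, B + 1, S, by omega, ?_, ?_, ?_, hintw⟩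
    · intro hno
      exact absurd hw (hno w (by simp))
    · intro _
      by_cases hex : ∃ w' ∈ ws, Full w'
      · exact hfull hex
      · push Not at hex
        obtain ⟨f, hf1, hf2⟩ := hpart hex
        obtain ⟨f', hc, -, hcon⟩ := merge f u v (hconst f hf2 u hu) (hconst f hf2 v hv)
        have hone : (univ.image f').card ≤ 1 := by
          apply Finset.card_le_one.mpr
          intro y hy z hz
          obtain ⟨a, -, rfl⟩ := mem_image.mp hy
          obtain ⟨b, -, rfl⟩ := mem_image.mp hz
          exact hcon a b (hsupp a (hw a)) (hsupp b (hw b))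
        omega
    · refine ⟨insert w T, (card_insert_le _ _).trans (by omega), ?_⟩
      intro w' hw' hF
      rcases List.mem_append.mp hw' with hw' | hw'
      · obtain ⟨t, ht, c, hc⟩ := hcls w' hw' hF
        exact ⟨t, mem_insert_of_mem ht, c, hc⟩
      · rw [List.mem_singleton.mp hw']
        exact ⟨w, mem_insert_self _ _, 1, by simp⟩
  · refine ⟨A + 1, B, S, by omega, ?_, ?_, ?_, hintw⟩
    · intro hno
      have hno' : ∀ w' ∈ ws, ¬ Full w' := fun w' hw' => hno w' (List.mem_append_left _ hw')
      obtain ⟨f, hf1, hf2⟩ := hpart hno'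
      obtain ⟨f', hc, hmono, hcon⟩ := merge f u v (hconst f hf2 u hu) (hconst f hf2 v hv)
      refine ⟨f', by omega, ?_⟩
      intro w' hw' a b ha hb
      rcases List.mem_append.mp hw' with hw' | hw'
      · exact hmono a b (hf2 w' hw' a b ha hb)
      · rw [List.mem_singleton.mp hw'] at ha hb
        exact hcon a b (hsupp a ha) (hsupp b hb)
    · rintro ⟨w', hw', hF⟩
      rcases List.mem_append.mp hw' with hw' | hw'
      · have := hfull ⟨w', hw', hF⟩
        omega
      · rw [List.mem_singleton.mp hw'] at hF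
        exact absurd hF hw
    · refine ⟨T, hT, ?_⟩
      intro w' hw' hF
      rcases List.mem_append.mp hw' with hw' | hw'
      · exact hcls w' hw' hF
      · rw [List.mem_singleton.mp hw'] at hF
        exact absurd hF hw

lemma step_smul {n : ℕ} (k1 : Fin n) (ws : List (Fin n → ℂ)) (A B S : ℕ)
    (h : Inv ws A B S) (c : ℂ) (u : Fin n → ℂ) (hu : u ∈ ws ∨ u = 0) :
    ∃ A' B' S', A' + B' + S' = A + B + S + 1 ∧ Inv (ws ++ [c • u]) A' B' S' := by
  obtain ⟨hpart, hfull, ⟨T, hT, hcls⟩, ⟨G, hG, hspan⟩⟩ := h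
  have hne : ∀ a, (c • u) a ≠ 0 → u a ≠ 0 := by
    intro a ha hua
    apply ha
    simp [hua]
  have hFu : Full (c • u) → u ∈ ws ∧ Full u := by
    intro hF
    have hFu : Full u := fun k => hne k (hF k)
    rcases hu with hu | hu
    · exact ⟨hu, hFu⟩
    · exact absurd (by rw [hu]; rfl) (hFu k1)
  refine ⟨A, B, S + 1, by omega, ?_, ?_, ?_, ?_⟩
  · intro hno
    have hno' : ∀ w' ∈ ws, ¬ Full w' := fun w' hw' => hno w' (List.mem_append_left _ hw')
    obtain ⟨f, hf1, hf2⟩ := hpart hno'
    refine ⟨f, hf1, ?_⟩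
    intro w' hw' a b ha hb
    rcases List.mem_append.mp hw' with hw' | hw'
    · exact hf2 w' hw' a b ha hb
    · rw [List.mem_singleton.mp hw'] at ha hb
      rcases hu with hu | hu
      · exact hf2 u hu a b (hne a ha) (hne b hb)
      · exact absurd (by rw [hu]; rfl) (hne a ha)
  · rintro ⟨w', hw', hF⟩
    rcases List.mem_append.mp hw' with hw' | hw'
    · exact hfull ⟨w', hw', hF⟩
    · rw [List.mem_singleton.mp hw'] at hF
      obtain ⟨hu', hFu'⟩ := hFu hF
      exact hfull ⟨u, hu', hFu'⟩
  · refine ⟨T, hT, ?_⟩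
    intro w' hw' hF
    rcases List.mem_append.mp hw' with hw' | hw'
    · exact hcls w' hw' hF
    · rw [List.mem_singleton.mp hw'] at hF ⊢
      obtain ⟨hu', hFu'⟩ := hFu hF
      obtain ⟨t, ht, c', hc'⟩ := hcls u hu' hFu'
      exact ⟨t, ht, c * c', by rw [hc', smul_smul]⟩
  · refine ⟨insert (c • u) G, (card_insert_le _ _).trans (by omega), ?_⟩
    have hmono : Submodule.span ℚ
        (Set.range (fun i : Fin n => (Pi.single i 1 : Fin n → ℂ)) ∪ (G : Set (Fin n → ℂ))) ≤
        Submodule.span ℚ (Set.range (fun i : Fin n => (Pi.single i 1 : Fin n → ℂ)) ∪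
          ((insert (c • u) G : Finset (Fin n → ℂ)) : Set (Fin n → ℂ))) := by
      apply Submodule.span_mono
      intro y hy
      rcases hy with hy | hy
      · exact Or.inl hy
      · exact Or.inr (by simp [hy])
    intro w' hw'
    rcases List.mem_append.mp hw' with hw' | hw'
    · exact hmono (hspan w' hw')
    · rw [List.mem_singleton.mp hw']
      apply Submodule.subset_span
      exact Or.inr (by simp)

lemma runV_inv {n : ℕ} (k1 : Fin n) (gs : List Gate) :
    ∀ (ws : List (Fin n → ℂ)) (A B S : ℕ), Inv ws A B S →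
      ∃ A' B' S', A' + B' + S' = A + B + S + gs.length ∧ Inv (runV gs ws) A' B' S' := by
  induction gs with
  | nil =>
    intro ws A B S h
    exact ⟨A, B, S, by simp, h⟩
  | cons g gs ih =>
    intro ws A B S h
    have hstep : ∃ A' B' S', A' + B' + S' = A + B + S + 1 ∧
        Inv (ws ++ [g.valV ws]) A' B' S' := by
      cases g with
      | add i j =>
        refine step_bin ws A B S h _ _ _ (getD_mem_or ws i) (getD_mem_or ws j) ?_ ?_
        · intro a ha
          by_contra hcon
          push Not at hcon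
          apply ha
          show ws.getD i 0 a + ws.getD j 0 a = 0
          rw [hcon.1, hcon.2, add_zero]
        · intro V h1 h2
          exact V.add_mem h1 h2
      | sub i j =>
        refine step_bin ws A B S h _ _ _ (getD_mem_or ws i) (getD_mem_or ws j) ?_ ?_
        · intro a ha
          by_contra hcon
          push Not at hcon
          apply ha
          show ws.getD i 0 a - ws.getD j 0 a = 0
          rw [hcon.1, hcon.2, sub_zero]
        · intro V h1 h2
          exact V.sub_mem h1 h2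
      | smul c i => exact step_smul k1 ws A B S h c _ (getD_mem_or ws i)
    obtain ⟨A1, B1, S1, hsum, hinv⟩ := hstep
    obtain ⟨A2, B2, S2, hsum2, hinv2⟩ := ih _ A1 B1 S1 hinv
    exact ⟨A2, B2, S2, by simp only [List.length_cons]; omega, hinv2⟩

lemma init_inv {n : ℕ} (hn : 2 ≤ n) :
    Inv (List.ofFn (fun i : Fin n => (Pi.single i 1 : Fin n → ℂ))) 0 0 0 := by
  have hmem : ∀ w ∈ List.ofFn (fun i : Fin n => (Pi.single i 1 : Fin n → ℂ)),
      ∃ i : Fin n, w = Pi.single i 1 := by
    intro w hw
    obtain ⟨i, hi⟩ := (List.mem_ofFn' _ _).mp hw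
    exact ⟨i, hi.symm⟩
  have hnf : ∀ w ∈ List.ofFn (fun i : Fin n => (Pi.single i 1 : Fin n → ℂ)), ¬ Full w := by
    intro w hw hF
    obtain ⟨i, rfl⟩ := hmem w hw
    have hex : ∃ k : Fin n, k ≠ i := by
      by_cases h0 : i.val = 0
      · exact ⟨⟨1, by omega⟩, fun h => by rw [← h] at h0; simp at h0⟩
      · exact ⟨⟨0, by omega⟩, fun h => by rw [← h] at h0; simp at h0⟩
    obtain ⟨k, hk⟩ := hex
    exact hF k (by simp [hk])
  refine ⟨?_, ?_, ?_, ?_⟩
  · intro _
    refine ⟨fun i => i.val, ?_, ?_⟩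
    · rw [Finset.card_image_of_injective _ Fin.val_injective]
      simp
    · intro w hw a b ha hb
      obtain ⟨i, rfl⟩ := hmem w hw
      have ha' : a = i := by
        by_contra hne
        exact ha (by simp [hne])
      have hb' : b = i := by
        by_contra hne
        exact hb (by simp [hne])
      rw [ha', hb']
  · rintro ⟨w, hw, hF⟩
    exact absurd hF (hnf w hw)
  · refine ⟨∅, by simp, ?_⟩
    intro w hw hF
    exact absurd hF (hnf w hw)
  · refine ⟨∅, by simp, ?_⟩
    intro w hw
    obtain ⟨i, rfl⟩ := hmem w hw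
    exact Submodule.subset_span (Or.inl ⟨i, rfl⟩)

section Cyclotomic

open Polynomial

/-- if a rational polynomial vanishes at one primitive `d`-th root of unity, it vanishes at all -/
lemma aeval_eq_zero_of_primitive {d : ℕ} (hd : 0 < d) {μ ω : ℂ} (hμ : IsPrimitiveRoot μ d)
    (hω : IsPrimitiveRoot ω d) (Q : ℚ[X]) (h : aeval μ Q = 0) : aeval ω Q = 0 := by
  have h1 : minpoly ℚ μ ∣ Q := minpoly.dvd ℚ μ h
  have h2 : minpoly ℚ μ = minpoly ℚ ω := by
    rw [← cyclotomic_eq_minpoly_rat hμ hd, ← cyclotomic_eq_minpoly_rat hω hd]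
  rw [h2] at h1
  obtain ⟨R, hR⟩ := h1
  rw [hR, map_mul, minpoly.aeval, zero_mul]

lemma key {n : ℕ} (hn : 0 < n) {ζ : ℂ} (hζ : IsPrimitiveRoot ζ n) (q : Fin n → ℚ)
    (h : ∀ d ∈ n.divisors, ∑ j : Fin n, (q j : ℂ) * (ζ ^ (n / d)) ^ (j : ℕ) = 0) :
    ∀ k : ℕ, ∑ j : Fin n, (q j : ℂ) * (ζ ^ k) ^ (j : ℕ) = 0 := by
  intro k
  set Q : ℚ[X] := ∑ j : Fin n, C (q j) * X ^ (j : ℕ) with hQ
  have hev : ∀ x : ℂ, aeval x Q = ∑ j : Fin n, (q j : ℂ) * x ^ (j : ℕ) := by
    intro x
    simp [hQ, map_sum]
  rw [← hev]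
  -- the order of ζ ^ k
  set d := orderOf (ζ ^ k) with hd
  have hζ0 : ζ ≠ 0 := hζ.ne_zero (by omega)
  have hdpos : 0 < d := by
    apply orderOf_pos_iff.mpr
    exact isOfFinOrder_iff_pow_eq_one.mpr
      ⟨n, hn, by rw [← pow_mul, mul_comm, pow_mul, hζ.pow_eq_one, one_pow]⟩
  have hdn : d ∣ n := by
    apply orderOf_dvd_of_pow_eq_one
    rw [← pow_mul, mul_comm, pow_mul, hζ.pow_eq_one, one_pow]
  have hω : IsPrimitiveRoot (ζ ^ k) d := IsPrimitiveRoot.orderOf (ζ ^ k)
  have hμ : IsPrimitiveRoot (ζ ^ (n / d)) d := by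
    apply hζ.pow hn
    exact (Nat.div_mul_cancel hdn).symm
  apply aeval_eq_zero_of_primitive hdpos hμ hω
  rw [hev]
  exact h d (Nat.mem_divisors.mpr ⟨hdn, by omega⟩)

end Cyclotomic

lemma key2 {n : ℕ} {ζ : ℂ} (hζ : IsPrimitiveRoot ζ n) (q : Fin n → ℚ)
    (h : ∀ k : Fin n, ∑ j : Fin n, (q j : ℂ) * (ζ ^ (k : ℕ)) ^ (j : ℕ) = 0) : q = 0 := by
  have hdet : (Matrix.vandermonde (fun k : Fin n => ζ ^ (k : ℕ))).det ≠ 0 := by
    rw [Matrix.det_vandermonde_ne_zero_iff]
    intro a b hab
    exact Fin.ext (hζ.pow_inj a.isLt b.isLt hab)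
  have hmul : (Matrix.vandermonde (fun k : Fin n => ζ ^ (k : ℕ))).mulVec (fun j => (q j : ℂ)) = 0 := by
    funext k
    simp only [Matrix.mulVec, dotProduct, Matrix.vandermonde_apply, Pi.zero_apply]
    rw [← h k]
    apply Finset.sum_congr rfl
    intro j _
    ring
  have := Matrix.eq_zero_of_mulVec_eq_zero hdet hmul
  funext j
  have hj := congrFun this j
  simpa using hj


lemma dim_bound {n : ℕ} (hn : 0 < n) {ζ : ℂ} (hζ : IsPrimitiveRoot ζ n)
    (G : Finset (Fin n → ℂ))
    (hrows : ∀ j : Fin n, (fun k : Fin n => ζ ^ (j.val * k.val)) ∈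
      Submodule.span ℚ (Set.range (fun i : Fin n => (Pi.single i 1 : Fin n → ℂ))
        ∪ (G : Set (Fin n → ℂ)))) :
    n ≤ G.card + n.divisors.card := by
  classical
  set e : Fin n → (Fin n → ℂ) := fun i => Pi.single i 1 with he
  set r : Fin n → (Fin n → ℂ) := fun j k => ζ ^ (j.val * k.val) with hr
  set W : Submodule ℚ (Fin n → ℂ) :=
    Submodule.span ℚ (Set.range e ∪ (G : Set (Fin n → ℂ))) with hW
  set Λ : ((Fin n → ℚ) × (Fin n → ℚ)) →ₗ[ℚ] (Fin n → ℂ) :=
    (Fintype.linearCombination ℚ e).coprod (Fintype.linearCombination ℚ r) with hΛ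
  have hΛapp : ∀ (p q : Fin n → ℚ) (k : Fin n),
      Λ (p, q) k = (p k : ℂ) + ∑ j : Fin n, (q j : ℂ) * ζ ^ (j.val * k.val) := by
    intro p q k
    simp [hΛ, he, hr, Fintype.linearCombination_apply, Finset.sum_apply, Pi.single_apply,
      Rat.smul_def]
  -- the range of Λ lies in W
  have hrange : LinearMap.range Λ ≤ W := by
    rw [hΛ, LinearMap.range_coprod, Fintype.range_linearCombination,
      Fintype.range_linearCombination]
    refine sup_le (Submodule.span_mono Set.subset_union_left) (Submodule.span_le.mpr ?_)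
    rintro _ ⟨j, rfl⟩
    exact hrows j
  -- W is spanned by at most n + |G| vectors
  have hWeq : W = Submodule.span ℚ (((Finset.univ.image e ∪ G : Finset (Fin n → ℂ))) :
      Set (Fin n → ℂ)) := by
    rw [hW]
    congr 1
    simp
  have hWfin : Module.Finite ℚ W := by
    rw [hWeq]
    infer_instance
  have hWdim : Module.finrank ℚ W ≤ n + G.card := by
    rw [hWeq]
    refine (finrank_span_finset_le_card _).trans ?_
    refine (Finset.card_union_le _ _).trans ?_
    have := Finset.card_image_le (s := (Finset.univ : Finset (Fin n))) (f := e)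
    simp at this
    omega
  have h1 : Module.finrank ℚ (LinearMap.range Λ) ≤ Module.finrank ℚ W :=
    LinearMap.finrank_le_finrank_of_injective (Submodule.inclusion_injective hrange)
  -- the kernel of Λ embeds into rational functions on the divisors of n
  set idx : n.divisors → Fin n := fun d => ⟨(n / d.val) % n, Nat.mod_lt _ hn⟩ with hidx
  set κ : LinearMap.ker Λ →ₗ[ℚ] (n.divisors → ℚ) :=
    LinearMap.pi (fun d => (LinearMap.proj (idx d)) ∘ₗ (LinearMap.fst ℚ (Fin n → ℚ) (Fin n → ℚ))
      ∘ₗ (LinearMap.ker Λ).subtype) with hκ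
  have hκinj : Function.Injective κ := by
    rw [injective_iff_map_eq_zero]
    rintro ⟨⟨p, q⟩, hx⟩ hκx
    have hx' : Λ (p, q) = 0 := hx
    have hpq : ∀ k : Fin n, (p k : ℂ) + ∑ j : Fin n, (q j : ℂ) * ζ ^ (j.val * k.val) = 0 := by
      intro k
      rw [← hΛapp, hx']
      rfl
    have hp0 : ∀ d : n.divisors, p (idx d) = 0 := by
      intro d
      have := congrFun hκx d
      simpa [hκ] using this
    have hq : q = 0 := by
      apply key2 hζ
      intro k
      apply key hn hζ
      intro d hd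
      have h2 := hpq (idx ⟨d, hd⟩)
      rw [hp0 ⟨d, hd⟩] at h2
      simp only [Rat.cast_zero, zero_add] at h2
      rw [← h2]
      apply Finset.sum_congr rfl
      intro j _
      congr 1
      rw [← pow_mul, mul_comm, hidx]
      simp only
      rw [pow_mul, pow_mul]
      exact pow_eq_pow_mod _ (by rw [← pow_mul, mul_comm, pow_mul, hζ.pow_eq_one, one_pow])
    have hp : p = 0 := by
      funext k
      have h2 := hpq k
      rw [hq] at h2
      simpa using h2
    simp [hp, hq]
  have h2 : Module.finrank ℚ (LinearMap.ker Λ) ≤ n.divisors.card := by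
    have := LinearMap.finrank_le_finrank_of_injective hκinj
    simpa [Module.finrank_fintype_fun_eq_card] using this
  have h3 := LinearMap.finrank_range_add_finrank_ker Λ
  rw [Module.finrank_prod, Module.finrank_fintype_fun_eq_card, Fintype.card_fin] at h3
  omega


/-- Every linear circuit with gates `u + v`, `u - v`, `c * u` (each of cost one) that computes the
discrete Fourier transform of order `n ≥ 2` has at least `3 n - d(n) - 2` gates, where `d(n)` is
the number of divisors of `n`. -/
theorem result : ∀ n : ℕ, 2 ≤ n → ∀ gs : List Gate, Computes n gs (dft n) →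
    3 * n ≤ gs.length + (Nat.divisors n).card + 2 := by
  intro n hn gs hcomp
  obtain ⟨out, hout⟩ := hcomp
  have hn0 : 0 < n := by omega
  have hζ : IsPrimitiveRoot (Complex.exp (2 * Real.pi * Complex.I / n)) n :=
    Complex.isPrimitiveRoot_exp n (by omega)
  set ζ : ℂ := Complex.exp (2 * Real.pi * Complex.I / n) with hζdef
  have hζ0 : ζ ≠ 0 := Complex.exp_ne_zero _
  -- the coefficient vectors of the output wires are the rows of the matrix
  have hrow : ∀ j : Fin n,
      (runV gs (List.ofFn (fun i : Fin n => (Pi.single i 1 : Fin n → ℂ)))).getD (out j) 0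
        = fun k : Fin n => ζ ^ (j.val * k.val) := by
    intro j
    funext k
    have h1 := hout (Pi.single k 1) j
    have h2 : List.ofFn (Pi.single k (1 : ℂ) : Fin n → ℂ)
        = (List.ofFn (fun i : Fin n => (Pi.single i 1 : Fin n → ℂ))).map (ev (Pi.single k 1)) := by
      rw [List.map_ofFn]
      congr 1
      funext i
      simp [ev, Pi.single_apply, eq_comm]
    rw [h2, run_map_ev, getD_map_ev] at h1
    simpa [ev, Matrix.mulVec, dotProduct, Pi.single_apply, dft] using h1
  obtain ⟨A, B, S, hsum, hpart, hfull, ⟨T, hT, hcls⟩, ⟨G, hG, hspan⟩⟩ :=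
    runV_inv ⟨1, by omega⟩ gs _ 0 0 0 (init_inv hn)
  have hFrow : ∀ j : Fin n, Full (fun k : Fin n => ζ ^ (j.val * k.val)) :=
    fun j k => pow_ne_zero _ hζ0
  have hmemrow : ∀ j : Fin n, (fun k : Fin n => ζ ^ (j.val * k.val)) ∈
      runV gs (List.ofFn (fun i : Fin n => (Pi.single i 1 : Fin n → ℂ))) := by
    intro j
    rcases getD_mem_or (runV gs (List.ofFn (fun i : Fin n => (Pi.single i 1 : Fin n → ℂ))))
      (out j) with h | h
    · rw [hrow j] at h; exact h
    · rw [hrow j] at h
      exact absurd (congrFun h ⟨0, hn0⟩) (hFrow j ⟨0, hn0⟩)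
  -- the binary gates with a value that is not full
  have hA : n ≤ A + 2 := hfull ⟨_, hmemrow ⟨0, hn0⟩, hFrow ⟨0, hn0⟩⟩
  -- the binary gates with a full value
  have hB : n ≤ B := by
    have hch : ∀ j : Fin n, ∃ t ∈ T, ∃ c : ℂ, (fun k : Fin n => ζ ^ (j.val * k.val)) = c • t :=
      fun j => hcls _ (hmemrow j) (hFrow j)
    choose g hgT cc hcc using hch
    have hinj : Function.Injective g := by
      intro i j hij
      have hi0 := congrFun (hcc i) ⟨0, hn0⟩
      have hj0 := congrFun (hcc j) ⟨0, hn0⟩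
      have hi1 := congrFun (hcc i) ⟨1, by omega⟩
      have hj1 := congrFun (hcc j) ⟨1, by omega⟩
      simp only [Pi.smul_apply, smul_eq_mul, mul_zero, pow_zero, mul_one] at hi0 hj0 hi1 hj1
      rw [hij] at hi0 hi1
      have ht0 : g j ⟨0, hn0⟩ ≠ 0 := by
        intro h0
        rw [h0, mul_zero] at hj0
        exact one_ne_zero hj0
      have hc : cc i = cc j := by
        have : cc i * g j ⟨0, hn0⟩ = cc j * g j ⟨0, hn0⟩ := by rw [← hi0, ← hj0]
        exact mul_right_cancel₀ ht0 this
      have hpow : ζ ^ i.val = ζ ^ j.val := by rw [hi1, hj1, hc]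
      exact Fin.ext (hζ.pow_inj i.isLt j.isLt hpow)
    have hcard : (univ : Finset (Fin n)).card ≤ T.card :=
      Finset.card_le_card_of_injOn g (fun j _ => hgT j) (fun i _ j _ h => hinj h)
    simp at hcard
    omega
  -- the scalar gates: the rows and the unit vectors span a space of dimension at least
  -- 2n - d(n) over ℚ
  have hS : n ≤ S + (Nat.divisors n).card := by
    have := dim_bound hn0 hζ G (fun j => hspan _ (hmemrow j))
    omega
  omega

end Vale.Agent.Results.P344.DivisorBound
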