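import Mathlib

/-!
# P344: a lower bound `2n - 2` (and `2n - 1` for `n ≥ 3`) on the number of gates of every
linear circuit computing the discrete Fourier transform of order `n`.

Wires are numbered in order of computation: wires `0, …, n-1` hold the inputs `x_0, …, x_{n-1}`,
wire `n + k` holds the value of the `k`-th gate. A gate is `u + v`, `u - v` or `c * u` for a fixed
complex `c`, where `u, v` are wires given by their numbers; a number that is not the number of an
already computed wire reads as the constant `0`. Every gate costs one.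
-/

namespace Vale.Agent.Results.P344.LinearBound

open Finset

/-- A gate of a linear circuit: the sum or difference of two wires, or a fixed complex multiple
of a wire. Wires are referred to by their numbers. -/
inductive Gate where
  | add (i j : ℕ) : Gate
  | sub (i j : ℕ) : Gate
  | smul (c : ℂ) (i : ℕ) : Gate

/-- The value of a gate, given the values `ws` of the wires computed so far
(a number that is not a wire reads as `0`). -/
def Gate.val (ws : List ℂ) : Gate → ℂ
  | Gate.add i j => ws.getD i 0 + ws.getD j 0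
  | Gate.sub i j => ws.getD i 0 - ws.getD j 0
  | Gate.smul c i => c * ws.getD i 0

/-- Run the gates in order, appending the value of each gate to the list of wire values. -/
def run : List Gate → List ℂ → List ℂ
  | [], ws => ws
  | g :: gs, ws => run gs (ws ++ [g.val ws])

/-- The linear circuit with gate list `gs` on `n` inputs computes the matrix `A`: there are
designated output wires whose values are the entries of `A x`, for every input vector `x`. -/
def Computes (n : ℕ) (gs : List Gate) (A : Matrix (Fin n) (Fin n) ℂ) : Prop :=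
  ∃ out : Fin n → ℕ, ∀ x : Fin n → ℂ, ∀ j : Fin n,
    (run gs (List.ofFn x)).getD (out j) 0 = A.mulVec x j

/-- The unnormalized discrete Fourier matrix `(ζ^(j k))`, with `ζ = exp (2 π i / n)`. -/
noncomputable def dft (n : ℕ) : Matrix (Fin n) (Fin n) ℂ :=
  Matrix.of fun j k => Complex.exp (2 * Real.pi * Complex.I / n) ^ (j.val * k.val)

/-! ## Proof -/

/-- the gate value on coefficient vectors -/
def Gate.valV {n : ℕ} (ws : List (Fin n → ℂ)) : Gate → (Fin n → ℂ)
  | Gate.add i j => ws.getD i 0 + ws.getD j 0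
  | Gate.sub i j => ws.getD i 0 - ws.getD j 0
  | Gate.smul c i => c • ws.getD i 0

/-- run on coefficient vectors -/
def runV {n : ℕ} : List Gate → List (Fin n → ℂ) → List (Fin n → ℂ)
  | [], ws => ws
  | g :: gs, ws => runV gs (ws ++ [g.valV ws])

/-- evaluation of a coefficient vector at an input -/
def ev {n : ℕ} (x v : Fin n → ℂ) : ℂ := ∑ k, v k * x k

lemma ev_zero {n : ℕ} (x : Fin n → ℂ) : ev x 0 = 0 := by simp [ev]

lemma ev_add {n : ℕ} (x u v : Fin n → ℂ) : ev x (u + v) = ev x u + ev x v := by
  simp [ev, add_mul, Finset.sum_add_distrib]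

lemma ev_sub {n : ℕ} (x u v : Fin n → ℂ) : ev x (u - v) = ev x u - ev x v := by
  simp [ev, sub_mul, Finset.sum_sub_distrib]

lemma ev_smul {n : ℕ} (x : Fin n → ℂ) (c : ℂ) (u : Fin n → ℂ) : ev x (c • u) = c * ev x u := by
  simp [ev, Finset.mul_sum, mul_assoc]

lemma getD_map_ev {n : ℕ} (x : Fin n → ℂ) (ws : List (Fin n → ℂ)) (i : ℕ) :
    (ws.map (ev x)).getD i 0 = ev x (ws.getD i 0) := by
  have h := List.getD_map ws (0 : Fin n → ℂ) (n := i) (ev x)
  rwa [ev_zero] at h

lemma val_map_ev {n : ℕ} (x : Fin n → ℂ) (ws : List (Fin n → ℂ)) (g : Gate) :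
    g.val (ws.map (ev x)) = ev x (g.valV ws) := by
  cases g with
  | add i j => simp only [Gate.val, Gate.valV]; rw [getD_map_ev, getD_map_ev, ev_add]
  | sub i j => simp only [Gate.val, Gate.valV]; rw [getD_map_ev, getD_map_ev, ev_sub]
  | smul c i => simp only [Gate.val, Gate.valV]; rw [getD_map_ev, ev_smul]

lemma run_map_ev {n : ℕ} (x : Fin n → ℂ) (gs : List Gate) :
    ∀ ws : List (Fin n → ℂ), run gs (ws.map (ev x)) = (runV gs ws).map (ev x) := by
  induction gs with
  | nil => intro ws; rfl
  | cons g gs ih =>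
    intro ws
    simp only [run, runV]
    rw [val_map_ev, ← ih]
    simp

lemma getD_mem_or {n : ℕ} (ws : List (Fin n → ℂ)) (i : ℕ) :
    ws.getD i 0 ∈ ws ∨ ws.getD i 0 = 0 := by
  by_cases h : i < ws.length
  · left; rw [List.getD_eq_getElem _ _ h]; exact List.getElem_mem h
  · right; exact List.getD_eq_default _ _ (by omega)

/-- a coefficient vector with no zero coefficient -/
def Full {n : ℕ} (w : Fin n → ℂ) : Prop := ∀ k, w k ≠ 0

/-- The invariant: `A` counts the binary gates with a value that is not full, `B` those with a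
full value, `S` the scalar gates. -/
def Inv {n : ℕ} (k1 : Fin n) (ws : List (Fin n → ℂ)) (A B S : ℕ) : Prop :=
  ((∀ w ∈ ws, ¬ Full w) → ∃ f : Fin n → ℕ, n ≤ (univ.image f).card + A ∧
      ∀ w ∈ ws, ∀ a b, w a ≠ 0 → w b ≠ 0 → f a = f b) ∧
  ((∃ w ∈ ws, Full w) → n ≤ A + 2) ∧
  (∃ T : Finset (Fin n → ℂ), T.card ≤ B ∧
      ∀ w ∈ ws, Full w → ∃ t ∈ T, ∃ c : ℂ, w = c • t) ∧
  (∃ G : Finset ℂ, G.card ≤ S ∧
      ∀ w ∈ ws, w k1 ∈ Submodule.span ℚ (insert (1 : ℂ) (G : Set ℂ)))

lemma merge {n : ℕ} (f : Fin n → ℕ) (u v : Fin n → ℂ)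
    (hu : ∀ a b, u a ≠ 0 → u b ≠ 0 → f a = f b)
    (hv : ∀ a b, v a ≠ 0 → v b ≠ 0 → f a = f b) :
    ∃ f' : Fin n → ℕ, (univ.image f).card ≤ (univ.image f').card + 1 ∧
      (∀ a b, f a = f b → f' a = f' b) ∧
      (∀ a b, (u a ≠ 0 ∨ v a ≠ 0) → (u b ≠ 0 ∨ v b ≠ 0) → f' a = f' b) := by
  by_cases h1 : ∃ a0, u a0 ≠ 0
  · by_cases h2 : ∃ b0, v b0 ≠ 0
    · obtain ⟨a0, ha0⟩ := h1
      obtain ⟨b0, hb0⟩ := h2
      refine ⟨fun x => if f x = f b0 then f a0 else f x, ?_, ?_, ?_⟩
      · calc (univ.image f).card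
            ≤ (insert (f b0) (univ.image fun x => if f x = f b0 then f a0 else f x)).card := by
              apply card_le_card
              intro y hy
              obtain ⟨x, -, rfl⟩ := mem_image.mp hy
              by_cases hx : f x = f b0
              · rw [hx]; exact mem_insert_self _ _
              · apply mem_insert_of_mem
                exact mem_image.mpr ⟨x, mem_univ _, by simp [hx]⟩
          _ ≤ _ := card_insert_le _ _
      · intro a b hab
        simp [hab]
      · intro a b ha hb
        have key : ∀ c, (u c ≠ 0 ∨ v c ≠ 0) →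
            (if f c = f b0 then f a0 else f c) = f a0 := by
          intro c hc
          rcases hc with hc | hc
          · have h3 : f c = f a0 := hu c a0 hc ha0
            by_cases h4 : f c = f b0
            · simp [h4]
            · simp [h3]
          · have h3 : f c = f b0 := hv c b0 hc hb0
            simp [h3]
        show (if f a = f b0 then f a0 else f a) = (if f b = f b0 then f a0 else f b)
        rw [key a ha, key b hb]
    · push Not at h2
      refine ⟨f, Nat.le_succ _, fun a b h => h, ?_⟩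
      intro a b ha hb
      have ha' : u a ≠ 0 := by
        rcases ha with h | h
        · exact h
        · exact absurd (h2 a) h
      have hb' : u b ≠ 0 := by
        rcases hb with h | h
        · exact h
        · exact absurd (h2 b) h
      exact hu a b ha' hb'
  · push Not at h1
    refine ⟨f, Nat.le_succ _, fun a b h => h, ?_⟩
    intro a b ha hb
    have ha' : v a ≠ 0 := by
      rcases ha with h | h
      · exact absurd (h1 a) h
      · exact h
    have hb' : v b ≠ 0 := by
      rcases hb with h | h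
      · exact absurd (h1 b) h
      · exact h
    exact hv a b ha' hb'

lemma step_bin {n : ℕ} (k1 : Fin n) (ws : List (Fin n → ℂ)) (A B S : ℕ) (h : Inv k1 ws A B S)
    (u v w : Fin n → ℂ) (hu : u ∈ ws ∨ u = 0) (hv : v ∈ ws ∨ v = 0)
    (hsupp : ∀ a, w a ≠ 0 → u a ≠ 0 ∨ v a ≠ 0)
    (hint : ∀ V : Submodule ℚ ℂ, u k1 ∈ V → v k1 ∈ V → w k1 ∈ V) :
    ∃ A' B' S', A' + B' + S' = A + B + S + 1 ∧ Inv k1 (ws ++ [w]) A' B' S' := by
  obtain ⟨hpart, hfull, ⟨T, hT, hcls⟩, ⟨G, hG, hspan⟩⟩ := h
  have hconst : ∀ (f : Fin n → ℕ), (∀ w' ∈ ws, ∀ a b, w' a ≠ 0 → w' b ≠ 0 → f a = f b) →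
      ∀ y : Fin n → ℂ, (y ∈ ws ∨ y = 0) → ∀ a b, y a ≠ 0 → y b ≠ 0 → f a = f b := by
    intro f hf y hy a b ha hb
    rcases hy with hy | hy
    · exact hf y hy a b ha hb
    · exact absurd (by rw [hy]; rfl) ha
  have hintw : ∃ G : Finset ℂ, G.card ≤ S ∧
      ∀ w' ∈ ws ++ [w], w' k1 ∈ Submodule.span ℚ (insert (1 : ℂ) (G : Set ℂ)) := by
    refine ⟨G, hG, ?_⟩
    intro w' hw'
    have hy : ∀ y : Fin n → ℂ, (y ∈ ws ∨ y = 0) →
        y k1 ∈ Submodule.span ℚ (insert (1 : ℂ) (G : Set ℂ)) := by
      intro y hy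
      rcases hy with hy | hy
      · exact hspan y hy
      · rw [hy]; exact Submodule.zero_mem _
    rcases List.mem_append.mp hw' with hw' | hw'
    · exact hspan w' hw'
    · rw [List.mem_singleton.mp hw']
      exact hint _ (hy u hu) (hy v hv)
  by_cases hw : Full w
  · refine ⟨A, B + 1, S, by omega, ?_, ?_, ?_, hintw⟩
    · intro hno
      exact absurd hw (hno w (by simp))
    · intro _
      by_cases hex : ∃ w' ∈ ws, Full w'
      · exact hfull hex
      · push Not at hex
        obtain ⟨f, hf1, hf2⟩ := hpart hex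
        obtain ⟨f', hc, -, hcon⟩ := merge f u v (hconst f hf2 u hu) (hconst f hf2 v hv)
        have hone : (univ.image f').card ≤ 1 := by
          apply Finset.card_le_one.mpr
          intro y hy z hz
          obtain ⟨a, -, rfl⟩ := mem_image.mp hy
          obtain ⟨b, -, rfl⟩ := mem_image.mp hz
          exact hcon a b (hsupp a (hw a)) (hsupp b (hw b))
        omega
    · refine ⟨insert w T, (card_insert_le _ _).trans (by omega), ?_⟩
      intro w' hw' hF
      rcases List.mem_append.mp hw' with hw' | hw'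
      · obtain ⟨t, ht, c, hc⟩ := hcls w' hw' hF
        exact ⟨t, mem_insert_of_mem ht, c, hc⟩
      · rw [List.mem_singleton.mp hw']
        exact ⟨w, mem_insert_self _ _, 1, by simp⟩
  · refine ⟨A + 1, B, S, by omega, ?_, ?_, ?_, hintw⟩
    · intro hno
      have hno' : ∀ w' ∈ ws, ¬ Full w' := fun w' hw' => hno w' (List.mem_append_left _ hw')
      obtain ⟨f, hf1, hf2⟩ := hpart hno'
      obtain ⟨f', hc, hmono, hcon⟩ := merge f u v (hconst f hf2 u hu) (hconst f hf2 v hv)
      refine ⟨f', by omega, ?_⟩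
      intro w' hw' a b ha hb
      rcases List.mem_append.mp hw' with hw' | hw'
      · exact hmono a b (hf2 w' hw' a b ha hb)
      · rw [List.mem_singleton.mp hw'] at ha hb
        exact hcon a b (hsupp a ha) (hsupp b hb)
    · rintro ⟨w', hw', hF⟩
      rcases List.mem_append.mp hw' with hw' | hw'
      · have := hfull ⟨w', hw', hF⟩
        omega
      · rw [List.mem_singleton.mp hw'] at hF
        exact absurd hF hw
    · refine ⟨T, hT, ?_⟩
      intro w' hw' hF
      rcases List.mem_append.mp hw' with hw' | hw'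
      · exact hcls w' hw' hF
      · rw [List.mem_singleton.mp hw'] at hF
        exact absurd hF hw

lemma step_smul {n : ℕ} (k1 : Fin n) (ws : List (Fin n → ℂ)) (A B S : ℕ)
    (h : Inv k1 ws A B S) (c : ℂ) (u : Fin n → ℂ) (hu : u ∈ ws ∨ u = 0) :
    ∃ A' B' S', A' + B' + S' = A + B + S + 1 ∧ Inv k1 (ws ++ [c • u]) A' B' S' := by
  obtain ⟨hpart, hfull, ⟨T, hT, hcls⟩, ⟨G, hG, hspan⟩⟩ := h
  have hne : ∀ a, (c • u) a ≠ 0 → u a ≠ 0 := by
    intro a ha hua
    apply ha
    simp [hua]
  have hFu : Full (c • u) → u ∈ ws ∧ Full u := by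
    intro hF
    have hFu : Full u := fun k => hne k (hF k)
    rcases hu with hu | hu
    · exact ⟨hu, hFu⟩
    · exact absurd (by rw [hu]; rfl) (hFu k1)
  refine ⟨A, B, S + 1, by omega, ?_, ?_, ?_, ?_⟩
  · intro hno
    have hno' : ∀ w' ∈ ws, ¬ Full w' := fun w' hw' => hno w' (List.mem_append_left _ hw')
    obtain ⟨f, hf1, hf2⟩ := hpart hno'
    refine ⟨f, hf1, ?_⟩
    intro w' hw' a b ha hb
    rcases List.mem_append.mp hw' with hw' | hw'
    · exact hf2 w' hw' a b ha hb
    · rw [List.mem_singleton.mp hw'] at ha hb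
      rcases hu with hu | hu
      · exact hf2 u hu a b (hne a ha) (hne b hb)
      · exact absurd (by rw [hu]; rfl) (hne a ha)
  · rintro ⟨w', hw', hF⟩
    rcases List.mem_append.mp hw' with hw' | hw'
    · exact hfull ⟨w', hw', hF⟩
    · rw [List.mem_singleton.mp hw'] at hF
      obtain ⟨hu', hFu'⟩ := hFu hF
      exact hfull ⟨u, hu', hFu'⟩
  · refine ⟨T, hT, ?_⟩
    intro w' hw' hF
    rcases List.mem_append.mp hw' with hw' | hw'
    · exact hcls w' hw' hF
    · rw [List.mem_singleton.mp hw'] at hF ⊢
      obtain ⟨hu', hFu'⟩ := hFu hF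
      obtain ⟨t, ht, c', hc'⟩ := hcls u hu' hFu'
      exact ⟨t, ht, c * c', by rw [hc', smul_smul]⟩
  · refine ⟨insert ((c • u) k1) G, (card_insert_le _ _).trans (by omega), ?_⟩
    have hmono : Submodule.span ℚ (insert (1 : ℂ) (G : Set ℂ)) ≤
        Submodule.span ℚ (insert (1 : ℂ) ((insert ((c • u) k1) G : Finset ℂ) : Set ℂ)) := by
      apply Submodule.span_mono
      intro y hy
      rcases hy with hy | hy
      · exact Or.inl hy
      · exact Or.inr (by simp [hy])
    intro w' hw'
    rcases List.mem_append.mp hw' with hw' | hw'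
    · exact hmono (hspan w' hw')
    · rw [List.mem_singleton.mp hw']
      apply Submodule.subset_span
      exact Or.inr (by simp)

lemma runV_inv {n : ℕ} (k1 : Fin n) (gs : List Gate) :
    ∀ (ws : List (Fin n → ℂ)) (A B S : ℕ), Inv k1 ws A B S →
      ∃ A' B' S', A' + B' + S' = A + B + S + gs.length ∧ Inv k1 (runV gs ws) A' B' S' := by
  induction gs with
  | nil =>
    intro ws A B S h
    exact ⟨A, B, S, by simp, h⟩
  | cons g gs ih =>
    intro ws A B S h
    have hstep : ∃ A' B' S', A' + B' + S' = A + B + S + 1 ∧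
        Inv k1 (ws ++ [g.valV ws]) A' B' S' := by
      cases g with
      | add i j =>
        refine step_bin k1 ws A B S h _ _ _ (getD_mem_or ws i) (getD_mem_or ws j) ?_ ?_
        · intro a ha
          by_contra hcon
          push Not at hcon
          apply ha
          show ws.getD i 0 a + ws.getD j 0 a = 0
          rw [hcon.1, hcon.2, add_zero]
        · intro V h1 h2
          exact V.add_mem h1 h2
      | sub i j =>
        refine step_bin k1 ws A B S h _ _ _ (getD_mem_or ws i) (getD_mem_or ws j) ?_ ?_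
        · intro a ha
          by_contra hcon
          push Not at hcon
          apply ha
          show ws.getD i 0 a - ws.getD j 0 a = 0
          rw [hcon.1, hcon.2, sub_zero]
        · intro V h1 h2
          exact V.sub_mem h1 h2
      | smul c i => exact step_smul k1 ws A B S h c _ (getD_mem_or ws i)
    obtain ⟨A1, B1, S1, hsum, hinv⟩ := hstep
    obtain ⟨A2, B2, S2, hsum2, hinv2⟩ := ih _ A1 B1 S1 hinv
    exact ⟨A2, B2, S2, by simp only [List.length_cons]; omega, hinv2⟩

lemma init_inv {n : ℕ} (hn : 2 ≤ n) (k1 : Fin n) :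
    Inv k1 (List.ofFn (fun i : Fin n => (Pi.single i 1 : Fin n → ℂ))) 0 0 0 := by
  have hmem : ∀ w ∈ List.ofFn (fun i : Fin n => (Pi.single i 1 : Fin n → ℂ)),
      ∃ i : Fin n, w = Pi.single i 1 := by
    intro w hw
    obtain ⟨i, hi⟩ := (List.mem_ofFn' _ _).mp hw
    exact ⟨i, hi.symm⟩
  have hnf : ∀ w ∈ List.ofFn (fun i : Fin n => (Pi.single i 1 : Fin n → ℂ)), ¬ Full w := by
    intro w hw hF
    obtain ⟨i, rfl⟩ := hmem w hw
    have hex : ∃ k : Fin n, k ≠ i := by
      by_cases h0 : i.val = 0
      · exact ⟨⟨1, by omega⟩, fun h => by rw [← h] at h0; simp at h0⟩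
      · exact ⟨⟨0, by omega⟩, fun h => by rw [← h] at h0; simp at h0⟩
    obtain ⟨k, hk⟩ := hex
    exact hF k (by simp [hk])
  refine ⟨?_, ?_, ?_, ?_⟩
  · intro _
    refine ⟨fun i => i.val, ?_, ?_⟩
    · rw [Finset.card_image_of_injective _ Fin.val_injective]
      simp
    · intro w hw a b ha hb
      obtain ⟨i, rfl⟩ := hmem w hw
      have ha' : a = i := by
        by_contra hne
        exact ha (by simp [hne])
      have hb' : b = i := by
        by_contra hne
        exact hb (by simp [hne])
      rw [ha', hb']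
  · rintro ⟨w, hw, hF⟩
    exact absurd hF (hnf w hw)
  · refine ⟨∅, by simp, ?_⟩
    intro w hw hF
    exact absurd hF (hnf w hw)
  · refine ⟨∅, by simp, ?_⟩
    intro w hw
    obtain ⟨i, rfl⟩ := hmem w hw
    by_cases hk : k1 = i
    · rw [hk]
      simp only [Pi.single_eq_same]
      exact Submodule.subset_span (Or.inl rfl)
    · rw [Pi.single_eq_of_ne hk]
      exact Submodule.zero_mem _

/-- Every linear circuit with gates `u + v`, `u - v`, `c * u` (each of cost one) that computes the
discrete Fourier transform of order `n ≥ 2` has at least `2 n + φ(n) - 3` gates, where `φ` is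
Euler's totient function. -/
theorem result : ∀ n : ℕ, 2 ≤ n → ∀ gs : List Gate, Computes n gs (dft n) →
    2 * n + Nat.totient n ≤ gs.length + 3 := by
  intro n hn gs hcomp
  obtain ⟨out, hout⟩ := hcomp
  have hn0 : 0 < n := by omega
  have hζ : IsPrimitiveRoot (Complex.exp (2 * Real.pi * Complex.I / n)) n :=
    Complex.isPrimitiveRoot_exp n (by omega)
  set ζ : ℂ := Complex.exp (2 * Real.pi * Complex.I / n) with hζdef
  have hζ0 : ζ ≠ 0 := Complex.exp_ne_zero _
  -- the coefficient vectors of the output wires are the rows of the matrix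
  have hrow : ∀ j : Fin n,
      (runV gs (List.ofFn (fun i : Fin n => (Pi.single i 1 : Fin n → ℂ)))).getD (out j) 0
        = fun k : Fin n => ζ ^ (j.val * k.val) := by
    intro j
    funext k
    have h1 := hout (Pi.single k 1) j
    have h2 : List.ofFn (Pi.single k (1 : ℂ) : Fin n → ℂ)
        = (List.ofFn (fun i : Fin n => (Pi.single i 1 : Fin n → ℂ))).map (ev (Pi.single k 1)) := by
      rw [List.map_ofFn]
      congr 1
      funext i
      simp [ev, Pi.single_apply, eq_comm]
    rw [h2, run_map_ev, getD_map_ev] at h1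
    simpa [ev, Matrix.mulVec, dotProduct, Pi.single_apply, dft] using h1
  obtain ⟨A, B, S, hsum, hpart, hfull, ⟨T, hT, hcls⟩, ⟨G, hG, hspan⟩⟩ :=
    runV_inv ⟨1, by omega⟩ gs _ 0 0 0 (init_inv hn ⟨1, by omega⟩)
  have hFrow : ∀ j : Fin n, Full (fun k : Fin n => ζ ^ (j.val * k.val)) :=
    fun j k => pow_ne_zero _ hζ0
  have hmemrow : ∀ j : Fin n, (fun k : Fin n => ζ ^ (j.val * k.val)) ∈
      runV gs (List.ofFn (fun i : Fin n => (Pi.single i 1 : Fin n → ℂ))) := by
    intro j
    rcases getD_mem_or (runV gs (List.ofFn (fun i : Fin n => (Pi.single i 1 : Fin n → ℂ))))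
      (out j) with h | h
    · rw [hrow j] at h; exact h
    · rw [hrow j] at h
      exact absurd (congrFun h ⟨0, hn0⟩) (hFrow j ⟨0, hn0⟩)
  -- the binary gates with a value that is not full
  have hA : n ≤ A + 2 := hfull ⟨_, hmemrow ⟨0, hn0⟩, hFrow ⟨0, hn0⟩⟩
  -- the binary gates with a full value
  have hB : n ≤ B := by
    have hch : ∀ j : Fin n, ∃ t ∈ T, ∃ c : ℂ, (fun k : Fin n => ζ ^ (j.val * k.val)) = c • t :=
      fun j => hcls _ (hmemrow j) (hFrow j)
    choose g hgT cc hcc using hch
    have hinj : Function.Injective g := by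
      intro i j hij
      have hi0 := congrFun (hcc i) ⟨0, hn0⟩
      have hj0 := congrFun (hcc j) ⟨0, hn0⟩
      have hi1 := congrFun (hcc i) ⟨1, by omega⟩
      have hj1 := congrFun (hcc j) ⟨1, by omega⟩
      simp only [Pi.smul_apply, smul_eq_mul, mul_zero, pow_zero, mul_one] at hi0 hj0 hi1 hj1
      rw [hij] at hi0 hi1
      have ht0 : g j ⟨0, hn0⟩ ≠ 0 := by
        intro h0
        rw [h0, mul_zero] at hj0
        exact one_ne_zero hj0
      have hc : cc i = cc j := by
        have : cc i * g j ⟨0, hn0⟩ = cc j * g j ⟨0, hn0⟩ := by rw [← hi0, ← hj0]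
        exact mul_right_cancel₀ ht0 this
      have hpow : ζ ^ i.val = ζ ^ j.val := by rw [hi1, hj1, hc]
      exact Fin.ext (hζ.pow_inj i.isLt j.isLt hpow)
    have hcard : (univ : Finset (Fin n)).card ≤ T.card :=
      Finset.card_le_card_of_injOn g (fun j _ => hgT j) (fun i _ j _ h => hinj h)
    simp at hcard
    omega
  -- the scalar gates: the powers of ζ span a space of dimension φ(n) over ℚ
  have hS : Nat.totient n ≤ S + 1 := by
    have hlin : LinearIndependent ℚ (fun i : Fin (minpoly ℚ ζ).natDegree => ζ ^ (i : ℕ)) :=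
      linearIndependent_pow ζ
    have hdeg : (minpoly ℚ ζ).natDegree = Nat.totient n := by
      rw [← Polynomial.cyclotomic_eq_minpoly_rat hζ hn0, Polynomial.natDegree_cyclotomic]
    have hrange : Set.range (fun i : Fin (minpoly ℚ ζ).natDegree => ζ ^ (i : ℕ)) ≤
        Submodule.span ℚ (((insert (1 : ℂ) G : Finset ℂ)) : Set ℂ) := by
      rintro _ ⟨i, rfl⟩
      have hi : (i : ℕ) < n := by
        have h1 := i.isLt
        have h2 := Nat.totient_le n
        omega
      have h3 := hspan _ (hmemrow ⟨i, hi⟩)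
      simp only [mul_one] at h3
      simpa using h3
    have hle := linearIndependent_le_span' _ hlin
      (((insert (1 : ℂ) G : Finset ℂ)) : Set ℂ) hrange
    rw [Cardinal.mk_fin] at hle
    simp only [Finset.coe_sort_coe, Fintype.card_coe] at hle
    have hle' : (minpoly ℚ ζ).natDegree ≤ (insert (1 : ℂ) G).card := by exact_mod_cast hle
    have := card_insert_le (1 : ℂ) G
    omega
  omega

end Vale.Agent.Results.P344.LinearBound
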